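import Vale.Agent.P024.H244.M3T.NoSplit1

/-!
P024: `noSplit1` for an arbitrary algebraic closure.
-/

namespace Vale.Agent.P024.H244.M3T

open NumberField IsDedekindDomain Vale.Agent.P024

theorem continuous_autCongr {F E E' : Type*} [Field F] [Field E] [Field E'] [Algebra F E]
    [Algebra F E'] (e : E ≃ₐ[F] E') : Continuous (AlgEquiv.autCongr e) := by
  have h : Continuous ((AlgEquiv.autCongr e : (E ≃ₐ[F] E) →* (E' ≃ₐ[F] E'))) := by
    apply continuous_of_continuousAt_one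
    rw [ContinuousAt, map_one]
    intro U hU
    rw [krullTopology_mem_nhds_one_iff] at hU
    obtain ⟨K, hK, hKU⟩ := hU
    rw [Filter.mem_map, krullTopology_mem_nhds_one_iff]
    refine ⟨K.map (e.symm : E' →ₐ[F] E), ?_, ?_⟩
    · exact LinearEquiv.finiteDimensional
        (IntermediateField.intermediateFieldMap e.symm K).toLinearEquiv
    · intro g hg
      apply hKU
      rw [SetLike.mem_coe, IntermediateField.mem_fixingSubgroup_iff] at hg ⊢
      intro x hx
      show e (g (e.symm x)) = x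
      rw [hg (e.symm x) ⟨x, hx, rfl⟩, AlgEquiv.apply_symm_apply]
  exact h

/-- **`noSplit1` for any algebraic closure.** -/
theorem noSplit1_of_isAlgClosure (D : Type*) [Field D] [NumberField D] (Ω : Type*) [Field Ω]
    [Algebra D Ω] [IsAlgClosure D Ω] (p : ℕ) [hp : Fact p.Prime] (hp2 : p ≠ 2)
    (ψ : (Ω ≃ₐ[D] Ω) →* ℤ_[p]ˣ) (hψ : Continuous ψ)
    (hinf : {v : HeightOneSpectrum (𝓞 D) |
      (Ideal.absNorm v.asIdeal).Prime ∧ TR.Kills ψ v}.Infinite) :
    ∃ m : ℕ, 0 < m ∧ ∀ g, ψ g ^ m = 1 := by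
  let e : AlgebraicClosure D ≃ₐ[D] Ω := IsAlgClosure.equiv D (AlgebraicClosure D) Ω
  let c : (AlgebraicClosure D ≃ₐ[D] AlgebraicClosure D) →* (Ω ≃ₐ[D] Ω) :=
    (AlgEquiv.autCongr e : (AlgebraicClosure D ≃ₐ[D] AlgebraicClosure D) →* (Ω ≃ₐ[D] Ω))
  have hc : Continuous c := continuous_autCongr e
  have hcapp : ∀ g x, c g x = e (g (e.symm x)) := fun g x => rfl
  obtain ⟨m, hm, hψm⟩ := noSplit1 D p hp2 (ψ.comp c) (hψ.comp hc) (hinf.mono (by
    rintro v ⟨hv1, hv2⟩
    refine ⟨hv1, ?_⟩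
    intro O hO s hs
    -- the valuation ring of `Ω` corresponding to `O`
    have hmem : ∀ x : Ω, x ∈ O.comap (e.symm : Ω →+* AlgebraicClosure D) ↔ e.symm x ∈ O :=
      fun x => Iff.rfl
    have hnon : ∀ x : Ω, x ∈ (O.comap (e.symm : Ω →+* AlgebraicClosure D)).nonunits ↔
        e.symm x ∈ O.nonunits := by
      intro x
      rw [ValuationSubring.mem_nonunits_iff_or, ValuationSubring.mem_nonunits_iff_or, hmem,
        map_inv₀, map_eq_zero_iff e.symm e.symm.injective]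
    refine hv2 (O.comap (e.symm : Ω →+* AlgebraicClosure D)) ?_ (c s) ?_
    · intro x
      rw [hO x, hnon]
      have h1 : e.symm (algebraMap D Ω (x : D)) = algebraMap D (AlgebraicClosure D) (x : D) :=
        e.symm.commutes _
      rw [h1]
    · intro x
      rw [hmem, hmem, hcapp, AlgEquiv.symm_apply_apply]
      exact hs _))
  refine ⟨m, hm, fun g => ?_⟩
  obtain ⟨s, rfl⟩ := (AlgEquiv.autCongr e).surjective g
  exact hψm s

/-- **`noSplit1` inside an algebraic closure of `ℚ`.** -/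
theorem noSplit1_intermediate {Ω : Type*} [Field Ω] [Algebra ℚ Ω] [IsAlgClosed Ω]
    [Algebra.IsAlgebraic ℚ Ω] (D : IntermediateField ℚ Ω) [NumberField D] (p : ℕ)
    [hp : Fact p.Prime] (hp2 : p ≠ 2) (ψ : (Ω ≃ₐ[D] Ω) →* ℤ_[p]ˣ) (hψ : Continuous ψ)
    (hinf : {v : HeightOneSpectrum (𝓞 D) |
      (Ideal.absNorm v.asIdeal).Prime ∧ TR.Kills ψ v}.Infinite) :
    ∃ m : ℕ, 0 < m ∧ ∀ g, ψ g ^ m = 1 := by
  have h2 : IsAlgClosure D Ω := ⟨inferInstance, Algebra.IsAlgebraic.tower_top (K := ℚ) D⟩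
  exact noSplit1_of_isAlgClosure D Ω p hp2 ψ hψ hinf

end Vale.Agent.P024.H244.M3T
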