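import Vale.Agent.P024.H539.PropA
import Vale.Agent.P024.M3T.Spec

/-!
P024, block [M3T] (A), literal form: ambiguous ideals with a finite set `T` of primes.
-/

namespace Vale.Agent.P024.H244.M3T

open IsDedekindDomain NumberField
open scoped NumberField Pointwise

open Vale.Agent.P024.H539

/-- **Block (A) of M3 with a set `T` of primes.** -/
theorem propAT.{u} : M3T.PropAT.{u} := by
  intro F L _ _ _ _ _ _ σ hσ p hp hun T _ hTp hfin
  have hD : ∀ x, ((M3.dd σ x : Lˣ) : L) = σ (x : L) / x := by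
    intro x
    change ((Units.map (σ : L →* L) x / x : Lˣ) : L) = _
    rw [Units.val_div_eq_div_val]
    rfl
  unfold M3.e1 at hfin ⊢
  rw [ker_dd hσ] at hfin ⊢
  have eU : M3T.UUT L T =
      VU {w : HeightOneSpectrum (𝓞 L) | ∀ v ∈ T, ¬ w.asIdeal.LiesOver v.asIdeal} := by
    ext x
    constructor
    · intro hx w hw
      exact hx w (fun v hv h => hw v hv ⟨h.symm⟩)
    · intro hx w hw
      exact hx w (fun v hv h => hw v hv h.over.symm)
  have eB : M3.RR L p = VU {w : HeightOneSpectrum (𝓞 L) | (p : 𝓞 L) ∈ w.asIdeal} := by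
    ext x
    exact Iff.rfl
  have hinv : ∀ (g : L ≃ₐ[F] L) (w : HeightOneSpectrum (𝓞 L)), mv g⁻¹ (mv g w) = w := by
    intro g w
    apply HeightOneSpectrum.ext
    rw [mv_asIdeal, mv_asIdeal, inv_smul_smul]
  have h2 : (FU F L ⊔ M3T.UUT L T).relIndex ((M3T.UUT L T).comap (M3.dd σ)) ≤
      Nat.card (ClassGroup (𝓞 F)) *
        (FU F L ⊔ M3.RR L p).relIndex ((M3.RR L p).comap (M3.dd σ)) ∧
      (FU F L ⊔ M3T.UUT L T).relIndex ((M3T.UUT L T).comap (M3.dd σ)) ≠ 0 := by
    rw [eU, eB]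
    rw [eB] at hfin
    refine amb_sets hσ hD ?_ ?_ ?_ (fun w _ hw P hP x => val_eq_of_unr (hun w hw) hP x) hfin
    · intro w hw v hv hwv
      apply hTp v hv
      rw [hwv.over, Ideal.mem_comap, map_natCast]
      exact hw
    · intro g w hw v hv h
      apply hw v hv
      have h1 := mv_over g⁻¹ h
      rwa [hinv] at h1
    · intro g w hw
      change (p : 𝓞 L) ∈ g • w.asIdeal
      have h1 : g • (p : 𝓞 L) ∈ g • w.asIdeal := Ideal.smul_mem_pointwise_smul _ _ _ hw
      have h2 : g • (p : 𝓞 L) = (p : 𝓞 L) :=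
        map_natCast (MulSemiringAction.toRingHom (L ≃ₐ[F] L) (𝓞 L) g) p
      rwa [h2] at h1
  have h3 : Nat.card (ClassGroup (𝓞 F)) = classNumber F := Nat.card_eq_fintype_card
  rw [← h3]
  exact h2.1

end Vale.Agent.P024.H244.M3T
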