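import Vale.Agent.P024.H422.TR
import Vale.Agent.P024.M3T.Spec

/-!
P024, block [M3T] (TR), literal form: the `σ`-invariants of the `T`-units of `L` are the
`T`-units of `F`.
-/

namespace Vale.Agent.P024.H244.M3T

open NumberField IsDedekindDomain Vale.Agent.P024.M3 Vale.Agent.P024.H422.TR

/-- **Block (TR) of M3 with a set `T` of primes.** -/
theorem propTRT.{u} : M3T.PropTRT.{u} := by
  intro F L _ _ _ _ _ _ σ hσ T
  have hker : (dd σ).ker = (Units.map (algebraMap F L : F →* L)).range := (propTR F L σ hσ).1
  have key : ∀ y : Fˣ, Units.map (algebraMap F L : F →* L) y ∈ M3T.UUT L T ↔ y ∈ M3T.UFT T := by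
    intro y
    constructor
    · intro h u hu
      obtain ⟨w, rfl⟩ := exists_dn (L := L) u
      obtain ⟨e, he, hval⟩ := val_dn (F := F) w
      have := h w (fun v hv hh => hu (by
        have h1 : dn w = v := HeightOneSpectrum.ext hh
        rw [h1]; exact hv))
      rw [Units.coe_map] at this
      rw [show ((algebraMap F L : F →* L) (y : F)) = algebraMap F L y from rfl, hval] at this
      exact (H422.TR.pow_eq_one he).mp this
    · intro h w hw
      obtain ⟨e, he, hval⟩ := val_dn (F := F) w
      have := h (dn w) (fun hh => hw (dn w) hh rfl)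
      rw [Units.coe_map, show ((algebraMap F L : F →* L) (y : F)) = algebraMap F L y from rfl,
        hval, this, one_pow]
  ext x
  rw [Subgroup.mem_inf, hker, Subgroup.mem_map]
  constructor
  · rintro ⟨hA, y, rfl⟩
    exact ⟨y, (key y).mp hA, rfl⟩
  · rintro ⟨y, hy, rfl⟩
    exact ⟨(key y).mpr hy, y, rfl⟩

end Vale.Agent.P024.H244.M3T
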