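import Vale.Agent.P024.H903.PropU
import Vale.Agent.P024.M3T.Spec

/-!
P024, block [M3T] (U), literal form: the Herbrand quotient of the units outside finitely many
totally split primes, over an arbitrary number field.
-/

namespace Vale.Agent.P024.H244.M3T

open NumberField InfinitePlace Module IsDedekindDomain Vale.Agent.P024 Vale.Agent.P024.H903

section

variable {F L : Type*} [Field F] [Field L] [NumberField L] [Algebra F L]

/-- **Units outside finitely many totally split primes** (`y i`, `i : I`, primes of `L` with trivial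
decomposition groups, with different orbits): a permutation module of finite index modulo one
relation. -/
theorem vminkT [NumberField F] [IsGalois F L] (hodd : Odd (Module.finrank F L))
    {I : Type*} [Fintype I] [DecidableEq I] (y : I → HeightOneSpectrum (𝓞 L))
    (hy : ∀ (i j : I) (g : L ≃ₐ[F] L), gp g (y i) = y j → i = j ∧ g = 1) (U : Subgroup Lˣ)
    (hU : ∀ x : Lˣ, x ∈ U ↔ ∀ w : HeightOneSpectrum (𝓞 L),
      (∀ (i : I) (g : L ≃ₐ[F] L), w ≠ gp g (y i)) → w.valuation L (x : L) = 1) :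
    ∃ u : InfinitePlace L ⊕ (Σ _ : I, (L ≃ₐ[F] L)) → Lˣ, (∀ x, u x ∈ U) ∧
      (∀ (g : L ≃ₐ[F] L) x, u (g • x) = Units.mapEquiv (g : L ≃* L) (u x)) ∧
      (Subgroup.closure (Set.range u)).relIndex U ≠ 0 ∧
      ∃ e : InfinitePlace L ⊕ (Σ _ : I, (L ≃ₐ[F] L)) → ℤ, e ≠ 0 ∧
        (∀ (g : L ≃ₐ[F] L) x, e (g • x) = e x) ∧
        ∀ a : InfinitePlace L ⊕ (Σ _ : I, (L ≃ₐ[F] L)) → ℤ,
          ∏ x, u x ^ a x = 1 ↔ ∃ k : ℤ, a = k • e := by
  classical
  obtain ⟨-, u₀, hu₀g, hu₀f, e₀, he₀p, he₀g, hrel⟩ := mink (F := F) (L := L) hodd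
  have hgen := fun i => exists_gen (𝓞 L) (y i)
  choose h π₀ hh hπ₀ hπy hπw using hgen
  have hπ₀' : ∀ i, algebraMap (𝓞 L) L (π₀ i) ≠ 0 := by
    intro i
    rw [ne_eq, FaithfulSMul.algebraMap_eq_zero_iff]
    exact hπ₀ i
  let π : I → Lˣ := fun i => Units.mk0 (algebraMap (𝓞 L) L (π₀ i)) (hπ₀' i)
  have hπval : ∀ (i : I) (w : HeightOneSpectrum (𝓞 L)), w.valuation L (π i : L) =
      if w = y i then WithZero.exp (-(h i : ℤ)) else 1 := by
    intro i w
    have h1 : (π i : L) = algebraMap (𝓞 L) L (π₀ i) := rfl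
    rw [h1, HeightOneSpectrum.valuation_of_algebraMap]
    split_ifs with hw
    · rw [hw, hπy]
    · exact hπw i w hw
  have hgπ : ∀ (i : I) (g : L ≃ₐ[F] L) (w : HeightOneSpectrum (𝓞 L)), w.valuation L (g (π i : L)) =
      if w = gp g (y i) then WithZero.exp (-(h i : ℤ)) else 1 := by
    intro i g w
    have h1 : gp g (gp g⁻¹ w) = w := by rw [← gp_mul, mul_inv_cancel, gp_one]
    have h2 := val_gp g (gp g⁻¹ w) (π i : L)
    rw [h1, hπval] at h2
    rw [h2]
    have h3 : gp g⁻¹ w = y i ↔ w = gp g (y i) := by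
      constructor
      · intro h; rw [← h1, h]
      · intro h; rw [h, ← gp_mul, inv_mul_cancel, gp_one]
    simp only [h3]
  have hinj : ∀ (s t : Σ _ : I, (L ≃ₐ[F] L)), gp s.2 (y s.1) = gp t.2 (y t.1) → s = t := by
    rintro ⟨i, g⟩ ⟨j, g'⟩ hgg
    have h1 : gp (g'⁻¹ * g) (y i) = y j := by
      rw [gp_mul, show gp g (y i) = gp g' (y j) from hgg, ← gp_mul, inv_mul_cancel, gp_one]
    obtain ⟨rfl, h2⟩ := hy _ _ _ h1
    rw [inv_mul_eq_one] at h2
    rw [h2]
  let u : InfinitePlace L ⊕ (Σ _ : I, (L ≃ₐ[F] L)) → Lˣ :=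
    Sum.elim (fun w => ui L (u₀ w)) fun s => Units.mapEquiv (s.2 : L ≃* L) (π s.1)
  have hul : ∀ w, u (Sum.inl w) = ui L (u₀ w) := fun w => rfl
  have hur : ∀ s, u (Sum.inr s) = Units.mapEquiv (s.2 : L ≃* L) (π s.1) := fun s => rfl
  have huU : ∀ x, u x ∈ U := by
    rintro (w | s)
    · rw [hul, hU]
      intro w' _
      exact val_ui w' _
    · rw [hur, hU]
      intro w' hw'
      have h1 : ((Units.mapEquiv (s.2 : L ≃* L) (π s.1) : Lˣ) : L) = s.2 (π s.1 : L) := rfl
      rw [h1, hgπ, if_neg (hw' s.1 s.2)]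
  have hvl : ∀ (w' : HeightOneSpectrum (𝓞 L)) (w : InfinitePlace L),
      vh w' (u (Sum.inl w)) = 1 := fun w' w => (vh_eq_one w' _).mpr (val_ui w' _)
  have hvr : ∀ s t : Σ _ : I, (L ≃ₐ[F] L), vh (gp s.2 (y s.1)) (u (Sum.inr t)) =
      if t = s then Multiplicative.ofAdd (-(h s.1 : ℤ)) else 1 := by
    intro s t
    show Multiplicative.ofAdd (WithZero.log ((gp s.2 (y s.1)).valuation L (t.2 (π t.1 : L)))) = _
    rw [hgπ]
    by_cases hst : t = s
    · rw [if_pos (by rw [hst]), if_pos hst, WithZero.log_exp, hst]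
    · rw [if_neg (fun hc => hst (hinj _ _ hc).symm), if_neg hst, WithZero.log_one, ofAdd_zero]
  have hvp : ∀ (s : Σ _ : I, (L ≃ₐ[F] L)) (c : (Σ _ : I, (L ≃ₐ[F] L)) → ℤ),
      vh (gp s.2 (y s.1)) (∏ t, u (Sum.inr t) ^ c t) =
        Multiplicative.ofAdd (-(h s.1 : ℤ) * c s) := by
    intro s c
    rw [map_prod, Finset.prod_eq_single s]
    · rw [map_zpow, hvr, if_pos rfl, ← ofAdd_zsmul, smul_eq_mul, mul_comm]
    · intro t _ ht
      rw [map_zpow, hvr, if_neg ht, one_zpow]
    · intro hs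
      exact absurd (Finset.mem_univ s) hs
  have hul' : ∀ a : InfinitePlace L → ℤ, ∏ w, u (Sum.inl w) ^ a w = ui L (∏ w, u₀ w ^ a w) := by
    intro a
    rw [map_prod]
    exact Finset.prod_congr rfl fun w _ => by rw [map_zpow, hul]
  have hIU : Subgroup.closure (Set.range u) ≤ U := by
    rw [Subgroup.closure_le]
    rintro _ ⟨x, rfl⟩
    exact huU x
  refine ⟨u, huU, ?_, ?_, Sum.elim e₀ fun _ => 0, ?_, ?_, ?_⟩
  · rintro g (w | s)
    · apply Units.ext
      exact hu₀g g w
    · apply Units.ext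
      rfl
  · let f : Lˣ →* ((Σ _ : I, (L ≃ₐ[F] L)) → Multiplicative ℤ) :=
      MonoidHom.pi fun s => vh (gp s.2 (y s.1))
    have hf : ∀ x s, f x s = vh (gp s.2 (y s.1)) x := fun x s => rfl
    rw [H157.relIndex_eq_map_mul_ker f hIU]
    apply mul_ne_zero
    · have : ∀ i, NeZero (h i) := fun i => ⟨(hh i).ne'⟩
      let q : ((Σ _ : I, (L ≃ₐ[F] L)) → Multiplicative ℤ) →*
          ((s : Σ _ : I, (L ≃ₐ[F] L)) → Multiplicative (ZMod (h s.1))) :=
        MonoidHom.pi fun s => (AddMonoidHom.toMultiplicative (Int.castAddHom (ZMod (h s.1)))).comp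
          (Pi.evalMonoidHom _ s)
      have hq : q.ker ≤ (Subgroup.closure (Set.range u)).map f := by
        intro m hm
        have h1 : ∀ s, ∃ c : ℤ, Multiplicative.toAdd (m s) = h s.1 * c := by
          intro s
          have h2 := congrFun (MonoidHom.mem_ker.mp hm) s
          have h3 : ((Multiplicative.toAdd (m s) : ℤ) : ZMod (h s.1)) = 0 := h2
          exact (ZMod.intCast_zmod_eq_zero_iff_dvd _ _).mp h3
        choose c hc using h1
        refine ⟨∏ t, u (Sum.inr t) ^ (-c t), ?_, ?_⟩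
        · exact Subgroup.prod_mem _ fun s _ =>
            Subgroup.zpow_mem _ (Subgroup.subset_closure (Set.mem_range_self _)) _
        · funext s
          rw [hf, hvp s fun s => -c s]
          apply Multiplicative.toAdd.injective
          rw [hc, toAdd_ofAdd]
          ring
      have hqi : q.ker.index ≠ 0 := by
        have : q.ker.FiniteIndex := Subgroup.finiteIndex_ker q
        exact Subgroup.FiniteIndex.index_ne_zero
      have h1 : ((Subgroup.closure (Set.range u)).map f).index ≠ 0 := by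
        intro h0
        have := Subgroup.index_dvd_of_le hq
        rw [h0, zero_dvd_iff] at this
        exact hqi this
      intro h0
      have := Subgroup.relIndex_dvd_index_of_normal ((Subgroup.closure (Set.range u)).map f)
        (U.map f)
      rw [h0, zero_dvd_iff] at this
      exact h1 this
    · have hUf : U ⊓ f.ker = (⊤ : Subgroup (𝓞 L)ˣ).map (ui L) := by
        apply le_antisymm
        · rintro x ⟨hx1, hx2⟩
          have h1 : ∀ w : HeightOneSpectrum (𝓞 L), w.valuation L (x : L) = 1 := by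
            intro w
            by_cases hw : ∃ (i : I) (g : L ≃ₐ[F] L), w = gp g (y i)
            · obtain ⟨i, g, rfl⟩ := hw
              exact (vh_eq_one _ _).mp (congrFun (MonoidHom.mem_ker.mp hx2) ⟨i, g⟩)
            · push Not at hw
              exact (hU x).mp hx1 w hw
          obtain ⟨v, hv⟩ := exists_ui x h1
          exact ⟨v, trivial, hv⟩
        · rintro _ ⟨v, -, rfl⟩
          exact ⟨(hU _).mpr fun w _ => val_ui w v,
            MonoidHom.mem_ker.mpr (funext fun s => (vh_eq_one _ _).mpr (val_ui _ v))⟩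
      have hIf : (Subgroup.closure (Set.range u₀)).map (ui L) ≤
          Subgroup.closure (Set.range u) ⊓ f.ker := by
        rw [Subgroup.map_le_iff_le_comap, Subgroup.closure_le]
        rintro _ ⟨w, rfl⟩
        exact ⟨Subgroup.subset_closure ⟨Sum.inl w, rfl⟩,
          MonoidHom.mem_ker.mpr (funext fun s => (vh_eq_one _ _).mpr (val_ui _ _))⟩
      intro h0
      have h1 := Subgroup.relIndex_dvd_of_le_left (U ⊓ f.ker) hIf
      rw [h0, zero_dvd_iff, hUf, Subgroup.relIndex_map_map, top_sup_eq,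
        Subgroup.relIndex_top_right, (MonoidHom.ker_eq_bot_iff _).mpr ui_injective,
        sup_bot_eq] at h1
      exact Subgroup.FiniteIndex.index_ne_zero h1
  · intro h0
    obtain ⟨w₀⟩ : Nonempty (InfinitePlace L) := inferInstance
    have := congrFun h0 (Sum.inl w₀)
    have h1 := he₀p w₀
    simp only [Sum.elim_inl, Pi.zero_apply] at this
    omega
  · rintro g (w | s)
    · exact he₀g g w
    · rfl
  · intro a
    rw [Fintype.prod_sum_type]
    constructor
    · intro h1
      have h2 : ∀ s, a (Sum.inr s) = 0 := by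
        intro s
        have h3 := congrArg (vh (gp s.2 (y s.1))) h1
        rw [map_mul, map_one, hvp s fun s => a (Sum.inr s), map_prod,
          Finset.prod_eq_one (fun w _ => by rw [map_zpow, hvl, one_zpow]), one_mul] at h3
        have h4 : -(h s.1 : ℤ) * a (Sum.inr s) = 0 := h3
        rcases mul_eq_zero.mp h4 with h5 | h5
        · have := hh s.1
          omega
        · exact h5
      have h6 : ∏ s : Σ _ : I, (L ≃ₐ[F] L), u (Sum.inr s) ^ a (Sum.inr s) = 1 :=
        Finset.prod_eq_one fun s _ => by rw [h2, zpow_zero]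
      rw [h6, mul_one, hul' fun w => a (Sum.inl w), ← map_one (ui L)] at h1
      obtain ⟨k, hk⟩ := (hrel _).mp (ui_injective h1)
      refine ⟨k, ?_⟩
      funext x
      rcases x with w | s
      · exact congrFun hk w
      · rw [h2]; simp
    · rintro ⟨k, rfl⟩
      have h6 : ∏ s : Σ _ : I, (L ≃ₐ[F] L), u (Sum.inr s) ^
          (k • (Sum.elim e₀ fun _ => 0 : InfinitePlace L ⊕ (Σ _ : I, (L ≃ₐ[F] L)) → ℤ))
            (Sum.inr s) = 1 :=
        Finset.prod_eq_one fun s _ => by simp
      rw [h6, mul_one, hul' fun w =>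
        (k • (Sum.elim e₀ fun _ => 0 : InfinitePlace L ⊕ (Σ _ : I, (L ≃ₐ[F] L)) → ℤ)) (Sum.inl w)]
      have h7 : ∏ w, u₀ w ^ (k • (Sum.elim e₀ fun _ => 0 :
          InfinitePlace L ⊕ (Σ _ : I, (L ≃ₐ[F] L)) → ℤ)) (Sum.inl w) = 1 := by
        rw [hrel]
        exact ⟨k, by funext w; simp⟩
      rw [h7, map_one]

end

/-- **Block (U)** of M3 with a set `T` of primes, over an arbitrary number field. -/
theorem propUT.{u} : M3T.PropUT.{u} := by
  classical
  intro F L _ _ _ _ _ _ σ hσ hodd T hT hsplit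
  have : Fintype T := hT.fintype
  have hex := fun v : T => exists_over (L := L) (v : HeightOneSpectrum (𝓞 F))
  choose y hy using hex
  have hover : ∀ (w : HeightOneSpectrum (𝓞 L)) (v : T),
      w.asIdeal.under (𝓞 F) = (v : HeightOneSpectrum (𝓞 F)).asIdeal ↔
      ∃ g : L ≃ₐ[F] L, w = gp g (y v) := by
    intro w v
    constructor
    · intro h
      exact exists_gp w (y v) (h.trans (hy v).symm)
    · rintro ⟨g, rfl⟩
      rw [under_gp, hy]
  have hfree : ∀ (i j : T) (g : L ≃ₐ[F] L), gp g (y i) = y j → i = j ∧ g = 1 := by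
    intro i j g hg
    have hij : i = j := by
      apply Subtype.ext
      apply HeightOneSpectrum.ext
      rw [← hy i, ← under_gp g (y i), hg, hy]
    subst hij
    refine ⟨rfl, ?_⟩
    apply hsplit i i.2 (y i) (hy i) g
    intro x
    have h := val_gp g (y i) x
    rwa [hg] at h
  obtain ⟨u, huU, hug, hfin, e, he0, heg, hrel⟩ := vminkT hodd y hfree (M3T.UUT L T) (by
    intro x
    show (∀ w : HeightOneSpectrum (𝓞 L), (∀ v ∈ T, w.asIdeal.under (𝓞 F) ≠ v.asIdeal) →
      w.valuation L (x : L) = 1) ↔ _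
    refine forall_congr' fun w => ?_
    have h1 : (∀ v ∈ T, w.asIdeal.under (𝓞 F) ≠ v.asIdeal) ↔
        ∀ (i : T) (g : L ≃ₐ[F] L), w ≠ gp g (y i) := by
      constructor
      · intro h i g hg
        exact h i i.2 ((hover w i).mpr ⟨g, hg⟩)
      · intro h v hv hw
        obtain ⟨g, hg⟩ := (hover w ⟨v, hv⟩).mp hw
        exact h ⟨v, hv⟩ g hg
    rw [h1])
  let ρ : (L ≃ₐ[F] L) →* MulAut Lˣ :=
    { toFun := fun g => Units.mapEquiv (g : L ≃* L)
      map_one' := by ext; rfl
      map_mul' := fun g h => by ext; rfl }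
  have key := H157.herb (X := InfinitePlace L ⊕ (Σ _ : T, (L ≃ₐ[F] L))) ρ hσ (by
      rintro g (w | ⟨i, g'⟩) hx
      · exact free_places hodd g w (Sum.inl_injective hx)
      · have h0 := Sum.inr_injective hx
        have h1 : g * g' = g' := eq_of_heq (Sigma.mk.inj h0).2
        exact mul_eq_right.mp h1)
    (M3.dd σ) (M3.nn F L) (fun x => rfl) (fun x => rfl) (M3T.UUT L T) (by
      intro g x hx w hw
      have h1 : gp g (gp g⁻¹ w) = w := by rw [← gp_mul, mul_inv_cancel, gp_one]
      have h2 := val_gp g (gp g⁻¹ w) (x : L)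
      rw [h1] at h2
      refine h2.trans (hx _ ?_)
      rw [under_gp]
      exact hw) u huU hug hfin e he0 heg hrel
  rw [IsGalois.card_aut_eq_finrank] at key
  exact ⟨key.2.2, key.1⟩

end Vale.Agent.P024.H244.M3T
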