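import Vale.Agent.P024.H358.M3.EndT
import Vale.Agent.P024.H157.PropsH
import Vale.Agent.P024.H409.PropD
import Vale.Agent.P024.H422.TR
import Vale.Agent.P024.H244.M3T.PropAT
import Vale.Agent.P024.H244.M3T.PropTRT
import Vale.Agent.P024.H244.M3T.PropUT

/-!
P024, block [M3T]: the composition.
-/

namespace Vale.Agent.P024.H244.M3T

open NumberField IsDedekindDomain Vale.Agent.P024

/-- A continuous character `Gal(F̄/F) → ℤ_pˣ` (`p` odd, `F` any number field) trivial on the
decomposition groups of the primes of a finite set `T` has finite order if the `T`-units of `F`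
have bounded index modulo all powers of `p`. -/
theorem finite_of_closT (F : Type*) [Field F] [NumberField F] (p : ℕ)
    [hp : Fact p.Prime] (hp2 : p ≠ 2)
    (ψ : (AlgebraicClosure F ≃ₐ[F] AlgebraicClosure F) →* ℤ_[p]ˣ) (hψ : Continuous ψ)
    (T : Set (HeightOneSpectrum (𝓞 F))) (hTf : T.Finite)
    (hT : ∀ v ∈ T, (p : 𝓞 F) ∉ v.asIdeal) (hkill : ∀ v ∈ T, TR.Kills ψ v)
    (hE : M3T.ClosT F p T) :
    ∃ m : ℕ, 0 < m ∧ ∀ g, ψ g ^ m = 1 :=
  M3T.finite_of H157.propH90 propUT propAT H409.propD H422.TR.propTR propTRT F p hp2 ψ hψ T hTf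
    hT hkill hE

end Vale.Agent.P024.H244.M3T
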