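import Vale.Agent.P024.H244.M3T.Final
import Vale.Agent.P024.H379.W.ClosT

/-!
P024: for every number field `F` and every odd prime `p`, a continuous character
`Gal(F̄/F) → ℤ_pˣ` which is trivial on the decomposition groups above infinitely many primes of `F`
of prime norm has finite order.
-/

namespace Vale.Agent.P024.H244.M3T

open NumberField IsDedekindDomain Vale.Agent.P024

/-- **No `ℤ_p`-extension of a number field has infinitely many totally split primes of degree
one** (`p` odd). -/
theorem noSplit1 (F : Type*) [Field F] [NumberField F] (p : ℕ) [hp : Fact p.Prime] (hp2 : p ≠ 2)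
    (ψ : (AlgebraicClosure F ≃ₐ[F] AlgebraicClosure F) →* ℤ_[p]ˣ) (hψ : Continuous ψ)
    (hinf : {v : HeightOneSpectrum (𝓞 F) |
      (Ideal.absNorm v.asIdeal).Prime ∧ TR.Kills ψ v}.Infinite) :
    ∃ m : ℕ, 0 < m ∧ ∀ g, ψ g ^ m = 1 := by
  obtain ⟨T, hTV, hTf, hTp, hcl⟩ := H379.W.w_closT F _ hinf (fun v hv => hv.1) p hp2
  exact finite_of_closT F p hp2 ψ hψ T hTf hTp (fun v hv => (hTV hv).2) hcl

end Vale.Agent.P024.H244.M3T
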